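import Vale.Agent.P216.H971B.Props
import Vale.Agent.P216.H971.LowGeo
import Vale.Agent.P216.V893.DscC

/-!
# P216-B, R2: exact list cochains and the descent in a free homotopy class
-/

open Set Topology

namespace Vale.Agent.P216.H539B

open Sl PS MV337 H456 H456C L250 H494
open Vale.Agent.P216.AS (IsMap IsHtpy)
open Vale.Agent.P216.H901 (tr on)
open Vale.Agent.P216.H971.Low

/-- A cocycle on `X` which is exact on `Y` is exact on `X` if `X` deforms in itself into `Y`. -/
theorem exL_htpy {k : Type} [Field k] {E : Type} [PseudoMetricSpace E] {X Y : Set E}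
    {m : ℕ} {D : ℝ → E → E} (h : IsHtpy (tr E) (tr E) X X D) (h0 : ∀ x ∈ X, D 0 x = x)
    (h1 : MapsTo (D 1) X Y) (hYX : Y ⊆ X) {f : List E → k} (hf : CocL X m f) (hY : ExL Y m f) :
    ExL X m f := by
  have hm1 : IsMap (tr E) (tr E) X Y (D 1) :=
    { mapsX := h1
      eqv := h.one.eqv
      uc := h.one.uc }
  have hid : ∀ l : List E, (∀ x ∈ l, x ∈ X) → l.map (D 0) = l := by
    intro l hl
    conv_rhs => rw [← List.map_id l]
    exact List.map_congr_left fun x hx => h0 x (hl x hx)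
  have hA := exC_htpy h hf
  rcases Nat.eq_zero_or_pos m with rfl | hm
  · obtain ⟨g, ε, hε, hg⟩ := hA
    obtain ⟨g', hg'0, ε', hε', hg'⟩ := hY
    have hval : ∀ y ∈ Y, f [y] = 0 := by
      intro y hy
      rw [hg' [y] rfl ⟨fun z hz => by rw [List.mem_singleton.1 hz]; exact hy,
        fun z hz z' hz' => by
          rw [List.mem_singleton.1 hz, List.mem_singleton.1 hz', dist_self]; exact hε'⟩, dl_one]
      exact hg'0 rfl _
    have hone : ∀ x ∈ X, f [D 1 x] - f [x] = g [] := by
      intro x hx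
      have h2 := hg [x] rfl ⟨fun z hz => by rw [List.mem_singleton.1 hz]; exact hx,
        fun z hz z' hz' => by
          rw [List.mem_singleton.1 hz, List.mem_singleton.1 hz', dist_self]; exact hε⟩
      rw [dl_one] at h2
      have h3 : D 0 x = x := h0 x hx
      have h4 : f ([x].map (D 1)) - f ([x].map (D 0)) = g [] := h2
      simp only [List.map_cons, List.map_nil, h3] at h4
      exact h4
    have hX : ∀ x ∈ X, f [x] = 0 := by
      intro x hx
      have e1 := hone x hx
      have e2 := hone (D 1 x) (hYX (h1 hx))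
      rw [hval _ (h1 (hYX (h1 hx))), hval _ (h1 hx), sub_zero] at e2
      rw [hval _ (h1 hx), ← e2, zero_sub, neg_eq_zero] at e1
      exact e1
    refine ⟨fun _ => 0, fun _ _ => rfl, 1, one_pos, fun l hl hs => ?_⟩
    obtain ⟨x, rfl⟩ := List.length_eq_one_iff.1 hl
    rw [hX x (hs.1 x (List.mem_singleton_self x)), dl_one]
  · have hB : ExC X m fun l => f (l.map (D 1)) := ExC.map hm1 (exC_of_exL hY)
    have hC := hB.add (hA.mul (-1))
    refine (hC.congr fun l hl => ?_).exL hm.ne'
    have h4 := hid l hl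
    rw [h4]
    ring

/-- **R2.** -/
theorem r2Goal : H971B.R2Goal := by
  intro M _ _ ρ hρ hU G c a T ha haT hno k _ q f a' haa' ha'T hf hex
  obtain ⟨D, d1, d2, d3, d4, d5⟩ := V893.Dsc.exists_desc hρ hU G c (ha.trans haa') ha'T
    (fun b hb g hg => hno b (haa'.trans_le hb.1) hb.2 g hg)
  have hT0 : 0 ≤ T := (ha.trans haT).le
  have hcomp : IsCompact (H971B.Ecl M T c) := V893.Dsc.isCompact_Ec hρ hU hT0 c
  have hm : ∀ s ∈ Icc (0 : ℝ) 1, MapsTo (D s) (H971B.Ecl M T c) (H971B.Ecl M T c) := by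
    intro s hs x hx
    exact ⟨d3 T hT0 le_rfl s hs x hx.1, (d4 s hs x hx.1).symm.trans hx.2⟩
  have hh : IsHtpy (tr (LM M)) (tr (LM M)) (H971B.Ecl M T c) (H971B.Ecl M T c) D :=
    IsHtpy.of_continuousOn hcomp (d1.mono (prod_mono_right fun x hx => hx.1)) hm
      (fun s hs i x hx => isEmptyElim i)
  refine exL_htpy hh (fun x _ => d2 x) (Y := H971B.Ecl M a' c) ?_ ?_ hf hex
  · intro x hx
    exact ⟨d5 x hx.1 hx.2, (d4 1 ⟨zero_le_one, le_rfl⟩ x hx.1).symm.trans hx.2⟩
  · intro x hx
    exact ⟨XE_mono (ha.trans haa').le ha'T hx.1, hx.2⟩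

end Vale.Agent.P216.H539B
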